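import Vale.Agent.P141.PL.Defs

/-!
# P141, line (A), TF: squares contained in many affected squares

`Af j n m` : the square with the cells `n`, `m` of scale `j` is affected. The affected squares
satisfy the packing condition with the constant `B` below every square of the root.

* `nAf Af N k n m` : the number of affected squares of scale at most `N` which contain the square
  `(k, n, m)`, itself included;
* `aff_tail_pt`, `aff_tail` : the measure, with multiplicity, of the affected squares contained in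
  more than `lam` affected squares is at most `B (1 - 1 / B) ^ lam` times the measure of the root;
* `aff_level_unique`, `aff_level_sum` : at a point at most one affected square has `nAf = i`, and at
  most `lam` affected squares have `nAf ≤ lam`;
* `aff_tail_mass` : the tail with masses bounded by a crude cap.
-/

namespace Vale.Agent.P141.H27

open Finset
open Vale.Agent.P141.PL (iv ix mem_iv ix_ix card_iv ix_zero)

noncomputable section

open scoped Classical

/-! ### Sums over cells -/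

theorem sum_iv_cells {a N : ℕ} (h : a ≤ N) (R : ℤ) (f : ℤ → ℝ) :
    ∑ n ∈ iv (N - a) R, ∑ x ∈ iv a n, f x = ∑ x ∈ iv N R, f x := by
  have hm : ∀ x ∈ iv N R, ix a x ∈ iv (N - a) R := by
    intro x hx
    rw [mem_iv] at hx ⊢
    rw [ix_ix, Nat.add_sub_cancel' h, hx]
  rw [← sum_fiberwise_of_maps_to hm]
  refine sum_congr rfl fun n hn => sum_congr ?_ fun _ _ => rfl
  ext x
  rw [mem_filter, mem_iv, mem_iv]
  rw [mem_iv] at hn
  constructor
  · intro hx
    refine ⟨?_, hx⟩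
    rw [← hn, ← hx, ix_ix, Nat.add_sub_cancel' h]
  · exact fun hx => hx.2

/-- squares as points -/
theorem sum_iv2_cells {k j : ℕ} (h : k ≤ j) (n m : ℤ) (f : ℤ → ℤ → ℝ) :
    ∑ x ∈ iv j n, ∑ y ∈ iv j m, f x y =
      ∑ n' ∈ iv (j - k) n, ∑ m' ∈ iv (j - k) m, ∑ x ∈ iv k n', ∑ y ∈ iv k m', f x y := by
  rw [← sum_iv_cells h n fun x => ∑ y ∈ iv j m, f x y]
  refine sum_congr rfl fun n' _ => ?_
  rw [sum_comm (s := iv (j - k) m)]
  refine sum_congr rfl fun x _ => ?_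
  rw [← sum_iv_cells h m fun y => f x y]

theorem sum_sq_pt {k j : ℕ} (h : k ≤ j) (n m : ℤ) (F : ℤ → ℤ → ℝ) :
    ∑ x ∈ iv j n, ∑ y ∈ iv j m, F (ix k x) (ix k y) =
      (4 : ℝ) ^ k * ∑ n' ∈ iv (j - k) n, ∑ m' ∈ iv (j - k) m, F n' m' := by
  rw [sum_iv2_cells h, mul_sum]
  refine sum_congr rfl fun n' _ => ?_
  rw [mul_sum]
  refine sum_congr rfl fun m' _ => ?_
  have e : ∀ x ∈ iv k n', ∑ y ∈ iv k m', F (ix k x) (ix k y) = 2 ^ k * F n' m' := by
    intro x hx
    rw [mem_iv.1 hx]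
    have e2 : ∀ y ∈ iv k m', F n' (ix k y) = F n' m' := fun y hy => by rw [mem_iv.1 hy]
    rw [sum_congr rfl e2, sum_const, card_iv, nsmul_eq_mul]
    push_cast
    rfl
  rw [sum_congr rfl e, sum_const, card_iv, nsmul_eq_mul]
  push_cast
  rw [← mul_assoc, ← mul_pow]
  norm_num

/-! ### One point -/

/-- the number of scales in `[k, N]` with `P` -/
def cnt (P : ℕ → Prop) (N k : ℕ) : ℕ := ((Icc k N).filter P).card

theorem cnt_anti (P : ℕ → Prop) (N : ℕ) {j k : ℕ} (h : j ≤ k) : cnt P N k ≤ cnt P N j :=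
  card_le_card (filter_subset_filter _ (Icc_subset_Icc_left h))

theorem cnt_top (P : ℕ → Prop) (N : ℕ) {k : ℕ} (h : N < k) : cnt P N k = 0 := by
  unfold cnt
  rw [Icc_eq_empty (by omega), filter_empty, card_empty]

theorem cnt_succ (P : ℕ → Prop) {N k : ℕ} (h : k ≤ N) :
    cnt P N k = cnt P N (k + 1) + if P k then 1 else 0 := by
  unfold cnt
  have e : Icc k N = insert k (Icc (k + 1) N) := by
    ext j
    rw [mem_insert, mem_Icc, mem_Icc]
    omega
  have hk : k ∉ Icc (k + 1) N := by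
    rw [mem_Icc]
    omega
  rw [e, filter_insert]
  split_ifs with hp
  · rw [card_insert_of_notMem fun h' => hk (mem_filter.1 h').1]
  · rfl

theorem cnt_level (P : ℕ → Prop) {N i : ℕ} (hi : 1 ≤ i) : ∀ d k : ℕ, k + d = N → i ≤ cnt P N k →
    ∃ j, k ≤ j ∧ j ≤ N ∧ P j ∧ cnt P N j = i := by
  intro d
  induction d with
  | zero =>
    intro k hk h
    have hkN : k = N := by omega
    subst hkN
    rw [cnt_succ P le_rfl, cnt_top P k (Nat.lt_succ_self k)] at h
    by_cases hp : P k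
    · rw [if_pos hp] at h
      refine ⟨k, le_rfl, le_rfl, hp, ?_⟩
      rw [cnt_succ P le_rfl, cnt_top P k (Nat.lt_succ_self k), if_pos hp]
      omega
    · rw [if_neg hp] at h
      omega
  | succ d ih =>
    intro k hk h
    by_cases h1 : i ≤ cnt P N (k + 1)
    · obtain ⟨j, h2, h3, h4, h5⟩ := ih (k + 1) (by omega) h1
      exact ⟨j, by omega, h3, h4, h5⟩
    · have h2 := cnt_succ P (N := N) (k := k) (by omega)
      by_cases hp : P k
      · rw [if_pos hp] at h2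
        exact ⟨k, le_rfl, by omega, hp, by omega⟩
      · rw [if_neg hp] at h2
        omega

theorem cnt_unique (P : ℕ → Prop) {N j k : ℕ} (hj : j ≤ N) (hk : k ≤ N) (pj : P j) (pk : P k)
    (h : cnt P N j = cnt P N k) : j = k := by
  rcases lt_trichotomy j k with hlt | heq | hgt
  · have h1 := cnt_succ P hj
    rw [if_pos pj] at h1
    have h2 := cnt_anti P N (j := j + 1) (k := k) hlt
    omega
  · exact heq
  · have h1 := cnt_succ P hk
    rw [if_pos pk] at h1
    have h2 := cnt_anti P N (j := k + 1) (k := j) hgt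
    omega

theorem cnt_pos (P : ℕ → Prop) {N k : ℕ} (hk : k ≤ N) (pk : P k) : 1 ≤ cnt P N k := by
  rw [cnt_succ P hk, if_pos pk]
  omega

/-- at most `lam` scales have `cnt ≤ lam` -/
theorem cnt_sum (P : ℕ → Prop) (N lam : ℕ) :
    ∑ k ∈ range (N + 1), (if P k ∧ cnt P N k ≤ lam then (1 : ℝ) else 0) ≤ lam := by
  rw [← sum_filter, sum_const, nsmul_eq_mul, mul_one]
  have h : ((range (N + 1)).filter fun k => P k ∧ cnt P N k ≤ lam).card ≤ (Icc 1 lam).card := by
    refine card_le_card_of_injOn (fun k => cnt P N k) ?_ ?_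
    · intro k hk
      rw [mem_coe, mem_filter, mem_range] at hk
      rw [mem_coe, mem_Icc]
      exact ⟨cnt_pos P (by omega) hk.2.1, hk.2.2⟩
    · intro j hj k hk he
      rw [mem_coe, mem_filter, mem_range] at hj hk
      exact cnt_unique P (by omega) (by omega) hj.2.1 hk.2.1 he
  rw [Nat.card_Icc, Nat.add_sub_cancel] at h
  exact_mod_cast h

/-- one point: the scales with `cnt ≥ i` lie below the scales with `cnt = i` -/
theorem cnt_le_pairs (P : ℕ → Prop) (N : ℕ) {i : ℕ} (hi : 1 ≤ i) :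
    ∑ k ∈ range (N + 1), (if P k ∧ i ≤ cnt P N k then (1 : ℝ) else 0) ≤
      ∑ j ∈ range (N + 1), (if P j ∧ cnt P N j = i then (1 : ℝ) else 0) *
        ∑ k ∈ range (j + 1), if P k then (1 : ℝ) else 0 := by
  have e : ∑ j ∈ range (N + 1), (if P j ∧ cnt P N j = i then (1 : ℝ) else 0) *
        ∑ k ∈ range (j + 1), (if P k then (1 : ℝ) else 0) =
      ∑ k ∈ range (N + 1), ∑ j ∈ range (N + 1), if k ≤ j then
        (if P j ∧ cnt P N j = i then (1 : ℝ) else 0) * (if P k then (1 : ℝ) else 0) else 0 := by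
    rw [sum_comm]
    refine sum_congr rfl fun j hj => ?_
    rw [mem_range] at hj
    rw [mul_sum, ← sum_filter]
    refine sum_congr ?_ fun _ _ => rfl
    ext k
    rw [mem_filter, mem_range, mem_range]
    omega
  rw [e]
  refine sum_le_sum fun k hk => ?_
  rw [mem_range] at hk
  have hn : ∀ j ∈ range (N + 1), (0 : ℝ) ≤ if k ≤ j then
      (if P j ∧ cnt P N j = i then (1 : ℝ) else 0) * (if P k then (1 : ℝ) else 0) else 0 := by
    intro j _
    split_ifs <;> norm_num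
  by_cases hp : P k ∧ i ≤ cnt P N k
  · rw [if_pos hp]
    obtain ⟨j, h1, h2, h3, h4⟩ := cnt_level P hi (N - k) k (by omega) hp.2
    refine le_trans (le_of_eq ?_) (single_le_sum hn (mem_range.2 (Nat.lt_succ_of_le h2)))
    rw [if_pos h1, if_pos ⟨h3, h4⟩, if_pos hp.1, mul_one]
  · rw [if_neg hp]
    exact sum_nonneg hn

/-! ### Squares -/

/-- number of the affected squares which contain the square `(k, n, m)` -/
def nAf (Af : ℕ → ℤ → ℤ → Prop) (N k : ℕ) (n m : ℤ) : ℕ :=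
  ((Icc k N).filter fun j => Af j (ix (j - k) n) (ix (j - k) m)).card

theorem nAf_pt (Af : ℕ → ℤ → ℤ → Prop) (N k : ℕ) (x y : ℤ) :
    nAf Af N k (ix k x) (ix k y) = cnt (fun j => Af j (ix j x) (ix j y)) N k := by
  unfold nAf cnt
  congr 1
  refine filter_congr fun j hj => ?_
  rw [mem_Icc] at hj
  rw [ix_ix, ix_ix, Nat.add_sub_cancel' hj.1]

theorem nAf_pos {Af : ℕ → ℤ → ℤ → Prop} {N k : ℕ} (hk : k ≤ N) {n m : ℤ} (h : Af k n m) :
    1 ≤ nAf Af N k n m := by
  unfold nAf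
  refine card_pos.2 ⟨k, mem_filter.2 ⟨mem_Icc.2 ⟨le_rfl, hk⟩, ?_⟩⟩
  rw [Nat.sub_self, ix_zero, ix_zero]
  exact h

/-- **At a point at most one affected square has `nAf = i`.** -/
theorem aff_level_unique {Af : ℕ → ℤ → ℤ → Prop} {N j k : ℕ} (hj : j ≤ N) (hk : k ≤ N) {x y : ℤ}
    (pj : Af j (ix j x) (ix j y)) (pk : Af k (ix k x) (ix k y))
    (h : nAf Af N j (ix j x) (ix j y) = nAf Af N k (ix k x) (ix k y)) : j = k := by
  rw [nAf_pt, nAf_pt] at h
  exact cnt_unique _ hj hk pj pk h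

/-- **At a point at most `lam` affected squares have `nAf ≤ lam`.** -/
theorem aff_level_sum (Af : ℕ → ℤ → ℤ → Prop) (N lam : ℕ) (x y : ℤ) :
    ∑ k ∈ range (N + 1), (if Af k (ix k x) (ix k y) ∧ nAf Af N k (ix k x) (ix k y) ≤ lam then
      (1 : ℝ) else 0) ≤ lam := by
  have h := cnt_sum (fun j => Af j (ix j x) (ix j y)) N lam
  simp only [nAf_pt]
  exact h

/-- the affected squares inside `(j, n, m)`, as points -/
def affM (Af : ℕ → ℤ → ℤ → Prop) (j : ℕ) (n m : ℤ) : ℝ :=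
  ∑ x ∈ iv j n, ∑ y ∈ iv j m, ∑ k ∈ range (j + 1), if Af k (ix k x) (ix k y) then (1 : ℝ) else 0

/-- the same as squares -/
theorem affM_sq (Af : ℕ → ℤ → ℤ → Prop) (j : ℕ) (n m : ℤ) :
    affM Af j n m = ∑ k ∈ range (j + 1), (4 : ℝ) ^ k * ∑ n' ∈ iv (j - k) n,
      ∑ m' ∈ iv (j - k) m, if Af k n' m' then (1 : ℝ) else 0 := by
  unfold affM
  have e : ∀ x ∈ iv j n, ∑ y ∈ iv j m, ∑ k ∈ range (j + 1),
      (if Af k (ix k x) (ix k y) then (1 : ℝ) else 0) = ∑ k ∈ range (j + 1), ∑ y ∈ iv j m,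
      (if Af k (ix k x) (ix k y) then (1 : ℝ) else 0) := fun x _ => sum_comm
  rw [sum_congr rfl e, sum_comm]
  refine sum_congr rfl fun k hk => ?_
  rw [mem_range] at hk
  exact sum_sq_pt (k := k) (j := j) (by omega) n m fun a b => if Af k a b then (1 : ℝ) else 0

/-- `S i` : the affected squares with `nAf ≥ i`, as points -/
def sAf (Af : ℕ → ℤ → ℤ → Prop) (N : ℕ) (R S : ℤ) (i : ℕ) : ℝ :=
  ∑ x ∈ iv N R, ∑ y ∈ iv N S, ∑ k ∈ range (N + 1),
    if Af k (ix k x) (ix k y) ∧ i ≤ nAf Af N k (ix k x) (ix k y) then (1 : ℝ) else 0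

/-- the affected squares with `nAf = i` -/
def eAf (Af : ℕ → ℤ → ℤ → Prop) (N : ℕ) (R S : ℤ) (i : ℕ) : ℝ :=
  ∑ x ∈ iv N R, ∑ y ∈ iv N S, ∑ k ∈ range (N + 1),
    if Af k (ix k x) (ix k y) ∧ nAf Af N k (ix k x) (ix k y) = i then (1 : ℝ) else 0

theorem sAf_split (Af : ℕ → ℤ → ℤ → Prop) (N : ℕ) (R S : ℤ) (i : ℕ) :
    sAf Af N R S i = eAf Af N R S i + sAf Af N R S (i + 1) := by
  unfold sAf eAf
  simp only [← sum_add_distrib]
  refine sum_congr rfl fun x _ => sum_congr rfl fun y _ => sum_congr rfl fun k _ => ?_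
  by_cases ha : Af k (ix k x) (ix k y)
  · rcases lt_trichotomy (nAf Af N k (ix k x) (ix k y)) i with h | h | h
    · rw [if_neg (by rintro ⟨_, h'⟩; omega), if_neg (by rintro ⟨_, h'⟩; omega),
        if_neg (by rintro ⟨_, h'⟩; omega)]
      norm_num
    · rw [if_pos ⟨ha, by omega⟩, if_pos ⟨ha, h⟩, if_neg (by rintro ⟨_, h'⟩; omega)]
      norm_num
    · rw [if_pos ⟨ha, by omega⟩, if_neg (by rintro ⟨_, h'⟩; omega), if_pos ⟨ha, by omega⟩]
      norm_num
  · rw [if_neg fun h => ha h.1, if_neg fun h => ha h.1, if_neg fun h => ha h.1]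
    norm_num

theorem sAf_nonneg (Af : ℕ → ℤ → ℤ → Prop) (N : ℕ) (R S : ℤ) (i : ℕ) : 0 ≤ sAf Af N R S i := by
  unfold sAf
  refine sum_nonneg fun x _ => sum_nonneg fun y _ => sum_nonneg fun k _ => ?_
  split_ifs <;> norm_num

/-- one generation -/
theorem sAf_le (Af : ℕ → ℤ → ℤ → Prop) (N : ℕ) (R S : ℤ) {B : ℝ}
    (hB : ∀ j, j ≤ N → ∀ n ∈ iv (N - j) R, ∀ m ∈ iv (N - j) S, affM Af j n m ≤ B * 4 ^ j)
    {i : ℕ} (hi : 1 ≤ i) : sAf Af N R S i ≤ B * eAf Af N R S i := by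
  have h1 : sAf Af N R S i ≤ ∑ x ∈ iv N R, ∑ y ∈ iv N S, ∑ j ∈ range (N + 1),
      (if Af j (ix j x) (ix j y) ∧ nAf Af N j (ix j x) (ix j y) = i then (1 : ℝ) else 0) *
        ∑ k ∈ range (j + 1), if Af k (ix k x) (ix k y) then (1 : ℝ) else 0 := by
    unfold sAf
    refine sum_le_sum fun x _ => sum_le_sum fun y _ => ?_
    have h := cnt_le_pairs (fun j => Af j (ix j x) (ix j y)) N hi
    simp only [nAf_pt]
    exact h
  refine h1.trans ?_
  have h2 : ∀ f : ℕ → ℤ → ℤ → ℝ, ∑ x ∈ iv N R, ∑ y ∈ iv N S, ∑ j ∈ range (N + 1), f j x y =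
      ∑ j ∈ range (N + 1), ∑ x ∈ iv N R, ∑ y ∈ iv N S, f j x y := by
    intro f
    have e : ∀ x ∈ iv N R, ∑ y ∈ iv N S, ∑ j ∈ range (N + 1), f j x y =
        ∑ j ∈ range (N + 1), ∑ y ∈ iv N S, f j x y := fun x _ => sum_comm
    rw [sum_congr rfl e, sum_comm]
  unfold eAf
  rw [h2, h2, mul_sum]
  refine sum_le_sum fun j hj => ?_
  rw [mem_range] at hj
  have hjN : j ≤ N := by omega
  rw [sum_iv2_cells hjN, sum_iv2_cells hjN, mul_sum]
  refine sum_le_sum fun n hn => ?_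
  rw [mul_sum]
  refine sum_le_sum fun m hm => ?_
  have e1 : ∑ x ∈ iv j n, ∑ y ∈ iv j m,
      (if Af j (ix j x) (ix j y) ∧ nAf Af N j (ix j x) (ix j y) = i then (1 : ℝ) else 0) *
        (∑ k ∈ range (j + 1), if Af k (ix k x) (ix k y) then (1 : ℝ) else 0) =
      (if Af j n m ∧ nAf Af N j n m = i then (1 : ℝ) else 0) * affM Af j n m := by
    unfold affM
    rw [mul_sum]
    refine sum_congr rfl fun x hx => ?_
    rw [mul_sum]
    refine sum_congr rfl fun y hy => ?_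
    rw [mem_iv.1 hx, mem_iv.1 hy]
  have e2 : ∑ x ∈ iv j n, ∑ y ∈ iv j m,
      (if Af j (ix j x) (ix j y) ∧ nAf Af N j (ix j x) (ix j y) = i then (1 : ℝ) else 0) =
      (if Af j n m ∧ nAf Af N j n m = i then (1 : ℝ) else 0) * 4 ^ j := by
    have e3 : ∀ x ∈ iv j n, ∑ y ∈ iv j m,
        (if Af j (ix j x) (ix j y) ∧ nAf Af N j (ix j x) (ix j y) = i then (1 : ℝ) else 0) =
        2 ^ j * (if Af j n m ∧ nAf Af N j n m = i then (1 : ℝ) else 0) := by
      intro x hx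
      have e4 : ∀ y ∈ iv j m,
          (if Af j (ix j x) (ix j y) ∧ nAf Af N j (ix j x) (ix j y) = i then (1 : ℝ) else 0) =
          (if Af j n m ∧ nAf Af N j n m = i then (1 : ℝ) else 0) := by
        intro y hy
        rw [mem_iv.1 hx, mem_iv.1 hy]
      rw [sum_congr rfl e4, sum_const, card_iv, nsmul_eq_mul]
      push_cast
      rfl
    rw [sum_congr rfl e3, sum_const, card_iv, nsmul_eq_mul]
    push_cast
    rw [← mul_assoc, ← mul_pow]
    norm_num
  rw [e1, e2]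
  have h3 := hB j hjN n hn m hm
  split_ifs
  · linarith
  · simp

/-- **The tail of the affected squares, point form.** -/
theorem aff_tail_pt (Af : ℕ → ℤ → ℤ → Prop) (N : ℕ) (R S : ℤ) {B : ℝ} (hB1 : 1 ≤ B)
    (hB : ∀ j, j ≤ N → ∀ n ∈ iv (N - j) R, ∀ m ∈ iv (N - j) S, affM Af j n m ≤ B * 4 ^ j)
    (lam : ℕ) :
    ∑ x ∈ iv N R, ∑ y ∈ iv N S, ∑ k ∈ range (N + 1),
      (if Af k (ix k x) (ix k y) ∧ lam < nAf Af N k (ix k x) (ix k y) then (1 : ℝ) else 0) ≤
      B * (1 - 1 / B) ^ lam * 4 ^ N := by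
  have hB0 : 0 < B := by linarith
  have h0 : 0 ≤ 1 - 1 / B := by
    rw [sub_nonneg, div_le_one hB0]
    exact hB1
  have step : ∀ i, 1 ≤ i → sAf Af N R S (i + 1) ≤ (1 - 1 / B) * sAf Af N R S i := by
    intro i hi
    have h1 := sAf_le Af N R S hB hi
    have h2 := sAf_split Af N R S i
    have h3 : sAf Af N R S i / B ≤ eAf Af N R S i := by
      rw [div_le_iff₀ hB0]
      linarith
    have h4 : (1 - 1 / B) * sAf Af N R S i = sAf Af N R S i - sAf Af N R S i / B := by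
      ring
    rw [h4]
    linarith
  have base : sAf Af N R S 1 ≤ B * 4 ^ N := by
    have h1 := hB N le_rfl R (by rw [Nat.sub_self, mem_iv, ix_zero]) S
      (by rw [Nat.sub_self, mem_iv, ix_zero])
    refine le_trans ?_ h1
    unfold sAf affM
    refine sum_le_sum fun x _ => sum_le_sum fun y _ => sum_le_sum fun k _ => ?_
    split_ifs with ha hb hb
    · exact le_rfl
    · exact absurd ha.1 hb
    · exact zero_le_one
    · exact le_rfl
  have main : ∀ l : ℕ, sAf Af N R S (l + 1) ≤ B * (1 - 1 / B) ^ l * 4 ^ N := by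
    intro l
    induction l with
    | zero => simpa using base
    | succ l ih =>
      refine (step (l + 1) (by omega)).trans ?_
      refine (mul_le_mul_of_nonneg_left ih h0).trans (le_of_eq ?_)
      rw [pow_succ]
      ring
  exact main lam

/-- **The tail of the affected squares, square form.** -/
theorem aff_tail (Af : ℕ → ℤ → ℤ → Prop) (N : ℕ) (R S : ℤ) {B : ℝ} (hB1 : 1 ≤ B)
    (hB : ∀ j, j ≤ N → ∀ n ∈ iv (N - j) R, ∀ m ∈ iv (N - j) S,
      ∑ k ∈ range (j + 1), (4 : ℝ) ^ k * ∑ n' ∈ iv (j - k) n, ∑ m' ∈ iv (j - k) m,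
        (if Af k n' m' then (1 : ℝ) else 0) ≤ B * 4 ^ j) (lam : ℕ) :
    ∑ k ∈ range (N + 1), (4 : ℝ) ^ k * ∑ n ∈ iv (N - k) R, ∑ m ∈ iv (N - k) S,
      (if Af k n m ∧ lam < nAf Af N k n m then (1 : ℝ) else 0) ≤
      B * (1 - 1 / B) ^ lam * 4 ^ N := by
  have h := aff_tail_pt Af N R S hB1 (fun j hj n hn m hm => by
    rw [affM_sq]
    exact hB j hj n hn m hm) lam
  refine le_trans (le_of_eq ?_) h
  have e : ∀ x ∈ iv N R, ∑ y ∈ iv N S, ∑ k ∈ range (N + 1),
      (if Af k (ix k x) (ix k y) ∧ lam < nAf Af N k (ix k x) (ix k y) then (1 : ℝ) else 0) =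
      ∑ k ∈ range (N + 1), ∑ y ∈ iv N S,
      (if Af k (ix k x) (ix k y) ∧ lam < nAf Af N k (ix k x) (ix k y) then (1 : ℝ) else 0) :=
    fun x _ => sum_comm
  rw [sum_congr rfl e, sum_comm]
  refine sum_congr rfl fun k hk => ?_
  rw [mem_range] at hk
  exact (sum_sq_pt (k := k) (j := N) (by omega) R S fun a b =>
    if Af k a b ∧ lam < nAf Af N k a b then (1 : ℝ) else 0).symm

/-- **The tail with masses**: every affected square of the tail has mass at most `c * 4 ^ k`. -/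
theorem aff_tail_mass (Af : ℕ → ℤ → ℤ → Prop) (N : ℕ) (R S : ℤ) {B c : ℝ} (hB1 : 1 ≤ B)
    (hc : 0 ≤ c)
    (hB : ∀ j, j ≤ N → ∀ n ∈ iv (N - j) R, ∀ m ∈ iv (N - j) S,
      ∑ k ∈ range (j + 1), (4 : ℝ) ^ k * ∑ n' ∈ iv (j - k) n, ∑ m' ∈ iv (j - k) m,
        (if Af k n' m' then (1 : ℝ) else 0) ≤ B * 4 ^ j) (lam : ℕ)
    (F : ℕ → ℤ → ℤ → ℝ) (hF : ∀ k, k ≤ N → ∀ n ∈ iv (N - k) R, ∀ m ∈ iv (N - k) S,
      Af k n m → lam < nAf Af N k n m → F k n m ≤ c * 4 ^ k) :
    ∑ k ∈ range (N + 1), ∑ n ∈ iv (N - k) R, ∑ m ∈ iv (N - k) S,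
      (if Af k n m ∧ lam < nAf Af N k n m then F k n m else 0) ≤
      c * (B * (1 - 1 / B) ^ lam * 4 ^ N) := by
  refine le_trans ?_ (mul_le_mul_of_nonneg_left (aff_tail Af N R S hB1 hB lam) hc)
  rw [mul_sum]
  refine sum_le_sum fun k hk => ?_
  rw [mem_range] at hk
  have e : c * ((4 : ℝ) ^ k * ∑ n ∈ iv (N - k) R, ∑ m ∈ iv (N - k) S,
      (if Af k n m ∧ lam < nAf Af N k n m then (1 : ℝ) else 0)) =
      ∑ n ∈ iv (N - k) R, ∑ m ∈ iv (N - k) S,
      (if Af k n m ∧ lam < nAf Af N k n m then c * 4 ^ k else 0) := by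
    rw [← mul_assoc, mul_sum]
    refine sum_congr rfl fun n _ => ?_
    rw [mul_sum]
    refine sum_congr rfl fun m _ => ?_
    split_ifs
    · ring
    · ring
  rw [e]
  refine sum_le_sum fun n hn => sum_le_sum fun m hm => ?_
  split_ifs with h
  · exact hF k (by omega) n hn m hm h.1 h.2
  · exact le_rfl

theorem tail_exp {B : ℝ} (hB1 : 1 ≤ B) (lam : ℕ) : (1 - 1 / B) ^ lam ≤ Real.exp (-(lam / B)) := by
  have hB0 : 0 < B := by linarith
  have h0 : 0 ≤ 1 - 1 / B := by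
    rw [sub_nonneg, div_le_one hB0]
    exact hB1
  have h1 : 1 - 1 / B ≤ Real.exp (-(1 / B)) := by
    have := Real.add_one_le_exp (-(1 / B))
    linarith
  refine (pow_le_pow_left₀ h0 h1 lam).trans (le_of_eq ?_)
  rw [← Real.exp_nat_mul]
  congr 1
  ring

end

end Vale.Agent.P141.H27
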